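/-
Row 210 (S0432), layer CD, block CD4 (entropy at the midpoint), file 7: `N (r - r^(1-1/N))` increases to `r log r`.
Sub-architect of the block: helper988.  Pure real analysis.
-/
import Mathlib

set_option autoImplicit false

open Filter
open scoped Topology

namespace Claimed.Agent.R210.CD.Ent.Pt

/-- `r = 0`: both sides are `0`. `r > 0`: divide by `r`; with `y = r^(-1/N) > 0`, `p = N/N' ∈ (0,1]`: `r^(-1/N') = y^p ≤ 1 + p (y - 1)`
(`Real.rpow_one_add_le_one_add_mul_self`), hence `N' (1 - y^p) ≥ N (1 - y)`. -/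
theorem cd_ent_pt_mono {r N N' : ℝ} (hr : 0 ≤ r) (hN : 1 < N) (hNN' : N ≤ N') :
    N * (r - r ^ (1 - 1 / N)) ≤ N' * (r - r ^ (1 - 1 / N')) := by
  have hN0 : 0 < N := by linarith
  have hN'0 : 0 < N' := by linarith
  have hN'1 : 1 < N' := by linarith
  rcases hr.eq_or_lt with h0 | hpos
  · subst h0
    have e1 : (1 - 1 / N) ≠ 0 := by
      have : 1 / N < 1 := by rw [div_lt_one hN0]; exact hN
      linarith
    have e2 : (1 - 1 / N') ≠ 0 := by
      have : 1 / N' < 1 := by rw [div_lt_one hN'0]; exact hN'1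
      linarith
    rw [Real.zero_rpow e1, Real.zero_rpow e2]
    simp
  · set y : ℝ := r ^ (-(1 / N)) with hy
    have hy0 : 0 < y := Real.rpow_pos_of_pos hpos _
    have a1 : r ^ (1 - 1 / N) = r * y := by
      rw [sub_eq_add_neg, Real.rpow_add hpos, Real.rpow_one]
    have a2 : r ^ (1 - 1 / N') = r * y ^ (N / N') := by
      rw [sub_eq_add_neg, Real.rpow_add hpos, Real.rpow_one, hy, ← Real.rpow_mul hpos.le]
      congr 2
      field_simp
    have hp0 : 0 ≤ N / N' := by positivity
    have hp1 : N / N' ≤ 1 := by rw [div_le_one hN'0]; exact hNN'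
    have key := rpow_one_add_le_one_add_mul_self (s := y - 1) (by linarith) hp0 hp1
    have e3 : 1 + (y - 1) = y := by ring
    rw [e3] at key
    rw [a1, a2]
    have h1 : N' * (r - r * y ^ (N / N')) = N' * r * (1 - y ^ (N / N')) := by ring
    have h2 : N * (r - r * y) = N' * r * (-(N / N' * (y - 1))) := by
      field_simp
      ring
    rw [h1, h2]
    apply mul_le_mul_of_nonneg_left _ (by positivity)
    linarith

/-- `r > 0`: `n (r - r^(1-1/n)) = r * (n (1 - exp (-(log r)/n)))` and `n (1 - exp (-x/n)) → x` (derivative of `exp` at `0`;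
e.g. `Real.tendsto_mul_log_one_add_div_atTop`-style, or `hasDerivAt_exp` + `HasDerivAt.tendsto_slope_zero`). -/
theorem cd_ent_pt_tendsto {r : ℝ} (hr : 0 ≤ r) :
    Tendsto (fun n : ℕ => (n : ℝ) * (r - r ^ (1 - 1 / (n : ℝ)))) atTop (𝓝 (r * Real.log r)) := by
  rcases hr.eq_or_lt with h0 | hpos
  · subst h0
    have hev : (fun n : ℕ => (n : ℝ) * ((0 : ℝ) - (0 : ℝ) ^ (1 - 1 / (n : ℝ)))) =ᶠ[atTop] fun _ => (0 : ℝ) := by
      filter_upwards [eventually_ge_atTop 2] with n hn
      have hn2 : (2 : ℝ) ≤ n := by exact_mod_cast hn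
      have e1 : (1 - 1 / (n : ℝ)) ≠ 0 := by
        have : 1 / (n : ℝ) < 1 := by rw [div_lt_one (by linarith)]; linarith
        linarith
      rw [Real.zero_rpow e1]
      simp
    rw [zero_mul]
    exact (tendsto_congr' hev).mpr tendsto_const_nhds
  · set x : ℝ := Real.log r with hx
    have hd : HasDerivAt (fun t : ℝ => Real.exp (-x * t)) (-x) 0 := by
      have h := ((hasDerivAt_id (0 : ℝ)).const_mul (-x)).exp
      simpa using h
    have hs := hd.tendsto_slope_zero
    have ht : Tendsto (fun n : ℕ => 1 / (n : ℝ)) atTop (𝓝[≠] 0) := by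
      rw [tendsto_nhdsWithin_iff]
      refine ⟨tendsto_one_div_atTop_nhds_zero_nat, ?_⟩
      filter_upwards [eventually_ge_atTop 1] with n hn
      have : (0 : ℝ) < n := by exact_mod_cast hn
      simp only [Set.mem_compl_iff, Set.mem_singleton_iff]
      positivity
    have hc := (hs.comp ht).const_mul (-r)
    have e : -r * -x = r * x := by ring
    rw [e] at hc
    refine (tendsto_congr' ?_).mpr hc
    filter_upwards [eventually_ge_atTop 1] with n hn
    have hn0 : (0 : ℝ) < n := by exact_mod_cast hn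
    have a1 : r ^ (1 - 1 / (n : ℝ)) = r * Real.exp (-x * (1 / (n : ℝ))) := by
      rw [sub_eq_add_neg, Real.rpow_add hpos, Real.rpow_one, Real.rpow_def_of_pos hpos]
      congr 2
      ring
    simp only [Function.comp, zero_add, mul_zero, Real.exp_zero, smul_eq_mul]
    rw [a1]
    field_simp
    ring

end Claimed.Agent.R210.CD.Ent.Pt
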