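/-
Row 210 (S0432), layer CD, block CD4 (entropy at the midpoint), file 8: the limit `N' → ∞` (abstract measure theory).
Sub-architect of the block: helper988.
-/
import Claimed.Agent.R210.CD.Ent.Pt

set_option autoImplicit false

open Filter MeasureTheory
open scoped ENNReal Topology

namespace Claimed.Agent.R210.CD.Ent.Limit

open Claimed.Agent.R210.CD.Ent.Pt

/-- Put `f N' x = N' (ρ x - ρ x ^ (1-1/N'))` (integrable). `∫ f N' = N' (1 - a - ∫ ρ^(1-1/N')) ≤ E - N' a`.
(1) `∫ f N ≤ ∫ f N' ≤ E - N' a` for all `N' ≥ N` (`cd_ent_pt_mono`) forces `a = 0` (`a ≥ 0`, let `N' → ∞`).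
(2) Fatou (`lintegral_liminf_le`) for `g n = ofReal (f n x - f N x)`, `n ≥ N` natural: `g n → ofReal (ρ log ρ - f N)` (`cd_ent_pt_tendsto`),
`∫⁻ g n = ofReal (∫ f n - ∫ f N) ≤ ofReal (E - ∫ f N)`. Hence `ρ log ρ - f N ≥ 0` is integrable with integral `≤ E - ∫ f N`. -/
theorem cd_ent_limit {α : Type*} [MeasurableSpace α] (m : Measure α) (ρ : α → ℝ) (hm : Measurable ρ)
    (h0 : ∀ x, 0 ≤ ρ x) (hρ : Integrable ρ m) {N : ℝ} (hN : 1 < N)
    (hpow : ∀ N' : ℝ, N ≤ N' → Integrable (fun x => ρ x ^ (1 - 1 / N')) m) {a E : ℝ} (ha : 0 ≤ a)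
    (h1 : ∫ x, ρ x ∂m = 1 - a)
    (h2 : ∀ N' : ℝ, N ≤ N' → 1 - E / N' ≤ ∫ x, ρ x ^ (1 - 1 / N') ∂m) :
    a = 0 ∧ Integrable (fun x => ρ x * Real.log (ρ x)) m ∧ ∫ x, ρ x * Real.log (ρ x) ∂m ≤ E := by
  have hN0 : 0 < N := by linarith
  set f : ℝ → α → ℝ := fun N' x => N' * (ρ x - ρ x ^ (1 - 1 / N')) with hf
  have hfint : ∀ N' : ℝ, N ≤ N' → Integrable (f N') m :=
    fun N' h => (hρ.sub (hpow N' h)).const_mul N'
  have hfI : ∀ N' : ℝ, N ≤ N' → ∫ x, f N' x ∂m ≤ E - N' * a := by
    intro N' h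
    have hN'0 : 0 < N' := by linarith
    have e1 : ∫ x, f N' x ∂m = N' * ((1 - a) - ∫ x, ρ x ^ (1 - 1 / N') ∂m) := by
      simp only [hf]
      rw [integral_const_mul, integral_sub hρ (hpow N' h), h1]
    rw [e1]
    have h3 : N' * (1 - E / N') = N' - E := by field_simp
    nlinarith [mul_le_mul_of_nonneg_left (h2 N' h) hN'0.le]
  have hmono : ∀ N' : ℝ, N ≤ N' → ∀ x, f N x ≤ f N' x :=
    fun N' h x => cd_ent_pt_mono (h0 x) hN h
  have hImono : ∀ N' : ℝ, N ≤ N' → ∫ x, f N x ∂m ≤ ∫ x, f N' x ∂m := fun N' h =>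
    integral_mono (hfint N le_rfl) (hfint N' h) (hmono N' h)
  set C : ℝ := E - ∫ x, f N x ∂m with hC
  have ha0 : a = 0 := by
    by_contra hne
    have hapos : 0 < a := lt_of_le_of_ne ha (Ne.symm hne)
    have h3 := (hImono (max N (C / a + 1)) (le_max_left _ _)).trans (hfI _ (le_max_left _ _))
    have h4 : (C / a + 1) * a ≤ max N (C / a + 1) * a :=
      mul_le_mul_of_nonneg_right (le_max_right _ _) ha
    have h5 : (C / a + 1) * a = C + a := by field_simp
    linarith
  refine ⟨ha0, ?_⟩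
  set L : α → ℝ := fun x => ρ x * Real.log (ρ x) with hL
  have hLm : Measurable L := hm.mul (Real.measurable_log.comp hm)
  have hfm : ∀ N' : ℝ, Measurable (f N') := fun N' => (hm.sub (hm.pow_const _)).const_mul _
  have htend : ∀ x, Tendsto (fun n : ℕ => f n x) atTop (𝓝 (L x)) :=
    fun x => cd_ent_pt_tendsto (h0 x)
  obtain ⟨n0, hn0⟩ := exists_nat_ge N
  have hLge : ∀ x, f N x ≤ L x := by
    intro x
    refine ge_of_tendsto (htend x) ?_
    filter_upwards [eventually_ge_atTop n0] with n hn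
    exact hmono n (hn0.trans (by exact_mod_cast hn)) x
  have hfatou : ∫⁻ x, ENNReal.ofReal (L x - f N x) ∂m ≤ ENNReal.ofReal C := by
    calc ∫⁻ x, ENNReal.ofReal (L x - f N x) ∂m
        = ∫⁻ x, liminf (fun n : ℕ => ENNReal.ofReal (f n x - f N x)) atTop ∂m := by
          refine lintegral_congr fun x => ?_
          exact ((ENNReal.tendsto_ofReal ((htend x).sub_const _)).liminf_eq).symm
      _ ≤ liminf (fun n : ℕ => ∫⁻ x, ENNReal.ofReal (f n x - f N x) ∂m) atTop :=
          lintegral_liminf_le (fun n => ((hfm n).sub (hfm N)).ennreal_ofReal)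
      _ ≤ ENNReal.ofReal C := by
          refine liminf_le_of_frequently_le' (Eventually.frequently ?_)
          filter_upwards [eventually_ge_atTop n0] with n hn
          have hnN : N ≤ (n : ℝ) := hn0.trans (by exact_mod_cast hn)
          have hi : Integrable (fun x => f n x - f N x) m := (hfint n hnN).sub (hfint N le_rfl)
          rw [← ofReal_integral_eq_lintegral_ofReal hi
            (Eventually.of_forall fun x => sub_nonneg.2 (hmono n hnN x))]
          refine ENNReal.ofReal_le_ofReal ?_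
          rw [integral_sub (hfint n hnN) (hfint N le_rfl)]
          have := hfI n hnN
          rw [ha0] at this
          linarith
  have hnn : 0 ≤ᵐ[m] fun x => L x - f N x := Eventually.of_forall fun x => sub_nonneg.2 (hLge x)
  have hDint : Integrable (fun x => L x - f N x) m :=
    ⟨(hLm.sub (hfm N)).aestronglyMeasurable,
      (hasFiniteIntegral_iff_ofReal hnn).2 (hfatou.trans_lt ENNReal.ofReal_lt_top)⟩
  have hLint : Integrable L m := by
    have := hDint.add (hfint N le_rfl)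
    refine this.congr (Eventually.of_forall fun x => ?_)
    simp
  refine ⟨hLint, ?_⟩
  have hC0 : 0 ≤ C := by
    have := (hfI N le_rfl)
    rw [ha0] at this
    linarith
  have hD : ∫ x, (L x - f N x) ∂m ≤ C := by
    have h6 := ofReal_integral_eq_lintegral_ofReal hDint hnn
    rw [← h6] at hfatou
    exact (ENNReal.ofReal_le_ofReal_iff hC0).1 hfatou
  rw [integral_sub hLint (hfint N le_rfl)] at hD
  linarith

end Claimed.Agent.R210.CD.Ent.Limit
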