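/-
Row 210 (S0432), layer CD, block CD4 (entropy at the midpoint), file 1: the coefficient at `t = 1/2` and the pointwise inequality.
Sub-architect of the block: helper988.
-/
import Claimed.Agent.R210.CO.Ifc

set_option autoImplicit false

open Claims.C0366 Claims.C0366.WeakHessian
open Set Filter MeasureTheory
open scoped ENNReal NNReal Topology

namespace Claimed.Agent.R210.CD.Ent.Coef

open Claimed.Agent.R210.CO.Ifc

/-- `2 tau_{K,N}(1/2,θ) ≥ exp (K θ² / (8 N))`.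
Proof: `co_tau_eq`, `co_tau_half`: `tau = 1/2 * cosh (θ k / 2) ^ (-((N-1)/N))`; `Real.cosh_le_exp_half_sq`: `cosh x ≤ exp (x²/2)`;
`Real.rpow_le_rpow_of_nonpos` (negative exponent), `(exp y)^a = exp (y a)` (`Real.exp_mul`), `co_k_sq : k² = -K/(N-1)`. -/
theorem cd_ent_tau_ge {K N : ℝ} (hK : K < 0) (hN : 1 < N) (θ : ℝ) :
    ENNReal.ofReal (Real.exp (K * θ ^ 2 / 8 / N) / 2) ≤ tauCoeff K N (1 / 2) θ := by
  rw [co_tau_eq hK hN (by norm_num) (by norm_num) θ]
  apply ENNReal.ofReal_le_ofReal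
  have h := co_tau_half_ge_exp hK hN θ
  rwa [show K * θ ^ 2 / (8 * N) = K * θ ^ 2 / 8 / N by rw [div_div]] at h

/-- `exp (c/N) r^{-1/N} = exp (-(log r - c)/N) ≥ 1 - (log r - c)/N` (`Real.add_one_le_exp`).
Write `r = ENNReal.ofReal r.toReal`, `ENNReal.ofReal_rpow_of_pos`, `Real.rpow_def_of_pos`, `ENNReal.ofReal_mul`. -/
theorem cd_ent_pointwise {r : ℝ≥0∞} (h0 : r ≠ 0) (ht : r ≠ ∞) {N : ℝ} (hN : 0 < N) (c : ℝ) :
    ENNReal.ofReal ((1 - (Real.log r.toReal - c) / N) / 2) ≤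
      ENNReal.ofReal (Real.exp (c / N) / 2) * r ^ (-1 / N) := by
  have hr : 0 < r.toReal := ENNReal.toReal_pos h0 ht
  have e1 : r ^ (-1 / N) = ENNReal.ofReal (r.toReal ^ (-1 / N)) := by
    rw [← ENNReal.ofReal_rpow_of_pos hr, ENNReal.ofReal_toReal ht]
  rw [e1, ← ENNReal.ofReal_mul (by positivity)]
  apply ENNReal.ofReal_le_ofReal
  rw [Real.rpow_def_of_pos hr]
  have e2 : Real.exp (c / N) / 2 * Real.exp (Real.log r.toReal * (-1 / N))
      = Real.exp (-(Real.log r.toReal - c) / N) / 2 := by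
    rw [div_mul_eq_mul_div, ← Real.exp_add]
    congr 2
    field_simp
    ring
  rw [e2]
  have := Real.add_one_le_exp (-(Real.log r.toReal - c) / N)
  have e3 : -(Real.log r.toReal - c) / N = -((Real.log r.toReal - c) / N) := by ring
  rw [e3] at this ⊢
  linarith

end Claimed.Agent.R210.CD.Ent.Coef
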