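/-
Row 210 (S0432), layer CD, block CD4 (entropy inequality at the midpoint), file 0: basic measurability facts.
Sub-architect of the block: helper988.  Plan of the block: see `Main.lean`.
-/
import Claimed.Agent.R210.Defs

set_option autoImplicit false

open Claims.C0366 Claims.C0366.WeakHessian
open Set Filter MeasureTheory
open scoped ENNReal NNReal Topology

namespace Claimed.Agent.R210.CD.Ent.Base

noncomputable section

variable {X : Type*} [MetricSpace X] [MeasurableSpace X] [BorelSpace X]

/-- the time `1/2` -/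
def cd_ent_half : Time := ⟨1 / 2, by norm_num, by norm_num⟩

theorem cd_ent_half_coe : ((cd_ent_half : Time) : ℝ) = 1 / 2 := rfl

theorem cd_ent_sigmaFinite {m : Measure X} (h : FiniteOnBoundedSets m) : SigmaFinite m := by
  rcases isEmpty_or_nonempty X with hX | ⟨⟨o⟩⟩
  · rw [Measure.eq_zero_of_isEmpty m]; infer_instance
  · exact ⟨⟨⟨fun n => Metric.ball o n, fun _ => trivial, fun n => h _ Metric.isBounded_ball,
      Metric.iUnion_ball_nat o⟩⟩⟩

theorem cd_ent_measurable_eval (t : Time) : Measurable (fun γ : Curve X => γ t) :=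
  (continuous_eval_const t).measurable

theorem cd_ent_measurable_pair : Measurable (fun γ : Curve X => (γ timeZero, γ timeOne)) :=
  (cd_ent_measurable_eval timeZero).prodMk (cd_ent_measurable_eval timeOne)

theorem cd_ent_map_zero {π : Measure (Curve X)} {μ₀ μ₁ : Measure X}
    (h : IsCoupling (endpointCoupling π) μ₀ μ₁) : Measure.map (fun γ : Curve X => γ timeZero) π = μ₀ := by
  rw [← h.1, endpointCoupling, Measure.map_map measurable_fst cd_ent_measurable_pair]
  rfl

theorem cd_ent_map_one {π : Measure (Curve X)} {μ₀ μ₁ : Measure X}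
    (h : IsCoupling (endpointCoupling π) μ₀ μ₁) : Measure.map (fun γ : Curve X => γ timeOne) π = μ₁ := by
  rw [← h.2, endpointCoupling, Measure.map_map measurable_snd cd_ent_measurable_pair]
  rfl

/-- a property which holds a.e. for the first marginal holds at `γ 0` for a.e. curve -/
theorem cd_ent_ae_zero {π : Measure (Curve X)} {μ₀ μ₁ : Measure X}
    (h : IsCoupling (endpointCoupling π) μ₀ μ₁) {P : X → Prop} (hP : ∀ᵐ x ∂μ₀, P x) :
    ∀ᵐ γ ∂π, P (γ timeZero) := by
  rw [← cd_ent_map_zero h] at hP
  exact ae_of_ae_map (cd_ent_measurable_eval timeZero).aemeasurable hP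

theorem cd_ent_ae_one {π : Measure (Curve X)} {μ₀ μ₁ : Measure X}
    (h : IsCoupling (endpointCoupling π) μ₀ μ₁) {P : X → Prop} (hP : ∀ᵐ x ∂μ₁, P x) :
    ∀ᵐ γ ∂π, P (γ timeOne) := by
  rw [← cd_ent_map_one h] at hP
  exact ae_of_ae_map (cd_ent_measurable_eval timeOne).aemeasurable hP

theorem cd_ent_interp_prob {π : Measure (Curve X)} [IsProbabilityMeasure π] (t : Time) :
    IsProbabilityMeasure (interpolation π t) :=
  Measure.isProbabilityMeasure_map (cd_ent_measurable_eval t).aemeasurable

end

end Claimed.Agent.R210.CD.Ent.Base
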