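/-
Row 210 (S0432), layer CD, block CD4 (entropy at the midpoint), file 3: the cost of the plan.
Sub-architect of the block: helper988.
-/
import Claimed.Agent.R210.CD.Ent.Base

set_option autoImplicit false

open Claims.C0366 Claims.C0366.WeakHessian
open Set Filter MeasureTheory
open scoped ENNReal NNReal Topology

namespace Claimed.Agent.R210.CD.Ent.Cost

open Claimed.Agent.R210.Defs Claimed.Agent.R210.CD.Ent.Base

variable {X : Type*} [MetricSpace X] [MeasurableSpace X] [BorelSpace X]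
variable {m μ₀ μ₁ : Measure X} {M₀ M₁ : ℝ≥0} {o₀ o₁ : X} {R₀ R₁ : ℝ} {π : Measure (Curve X)}

theorem cd_ent_W2sq_eq {q : Measure (X × X)} (h : IsOptimalCoupling q μ₀ μ₁) :
    W2sq μ₀ μ₁ = QuadraticTransportCost q := by
  unfold W2sq
  apply le_antisymm
  · exact iInf₂_le q h.1
  · exact le_iInf₂ (fun q' hq' => h.2 q' hq')

/-- `cd_ent_ae_zero`, `cd_ent_ae_one` applied to `BddDens.conc`, triangle inequality. -/
theorem cd_ent_dist_le (h0 : BddDens m μ₀ M₀ o₀ R₀) (h1 : BddDens m μ₁ M₁ o₁ R₁)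
    (hc : IsCoupling (endpointCoupling π) μ₀ μ₁) :
    ∀ᵐ γ ∂π, dist (γ timeZero) (γ timeOne) ≤ R₀ + dist o₀ o₁ + R₁ := by
  have a0 : ∀ᵐ x ∂μ₀, x ∈ Metric.closedBall o₀ R₀ := by
    rw [ae_iff]
    exact h0.conc
  have a1 : ∀ᵐ x ∂μ₁, x ∈ Metric.closedBall o₁ R₁ := by
    rw [ae_iff]
    exact h1.conc
  filter_upwards [cd_ent_ae_zero hc a0, cd_ent_ae_one hc a1] with γ g0 g1
  have h3 := dist_triangle4 (γ timeZero) o₀ o₁ (γ timeOne)
  rw [Metric.mem_closedBall] at g0 g1
  rw [dist_comm] at g1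
  linarith

theorem cd_ent_integrable_sq [IsProbabilityMeasure π] (h0 : BddDens m μ₀ M₀ o₀ R₀) (h1 : BddDens m μ₁ M₁ o₁ R₁)
    (hc : IsCoupling (endpointCoupling π) μ₀ μ₁) :
    Integrable (fun γ : Curve X => dist (γ timeZero) (γ timeOne) ^ 2) π := by
  have hcont : Continuous (fun γ : Curve X => dist (γ timeZero) (γ timeOne) ^ 2) :=
    ((continuous_eval_const timeZero).dist (continuous_eval_const timeOne)).pow 2
  refine Integrable.of_bound hcont.aestronglyMeasurable ((R₀ + dist o₀ o₁ + R₁) ^ 2) ?_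
  filter_upwards [cd_ent_dist_le h0 h1 hc] with γ hγ
  rw [Real.norm_eq_abs, abs_of_nonneg (sq_nonneg _)]
  exact pow_le_pow_left₀ dist_nonneg hγ 2

/-- `integral_eq_lintegral_of_nonneg_ae`, `lintegral_map` (measurability of `p ↦ edist p.1 p.2 ^ 2` on `X × X` needs second countability),
`cd_ent_W2sq_eq`. -/
theorem cd_ent_integral_sq [TopologicalSpace.SeparableSpace X]
    (hopt : IsOptimalCoupling (endpointCoupling π) μ₀ μ₁) :
    ∫ γ, dist (γ timeZero) (γ timeOne) ^ 2 ∂π = W2sqR μ₀ μ₁ := by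
  haveI : SecondCountableTopology X := UniformSpace.secondCountable_of_separable X
  have hcont : Continuous (fun γ : Curve X => dist (γ timeZero) (γ timeOne) ^ 2) :=
    ((continuous_eval_const timeZero).dist (continuous_eval_const timeOne)).pow 2
  rw [integral_eq_lintegral_of_nonneg_ae (Eventually.of_forall fun γ => sq_nonneg _)
    hcont.aestronglyMeasurable]
  unfold W2sqR
  rw [cd_ent_W2sq_eq hopt]
  unfold QuadraticTransportCost endpointCoupling
  have hmeas : Measurable (fun p : X × X => (edist p.1 p.2) ^ 2) := measurable_edist.pow_const 2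
  rw [lintegral_map hmeas cd_ent_measurable_pair]
  congr 1
  refine lintegral_congr fun γ => ?_
  rw [edist_dist, ENNReal.ofReal_pow dist_nonneg]

end Claimed.Agent.R210.CD.Ent.Cost
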