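/-
Row 210 (S0432), layer CD, block CD4 (entropy at the midpoint), file 2: measures with bounded density and bounded support.
Sub-architect of the block: helper988.
-/
import Claimed.Agent.R210.CD.Ent.Base

set_option autoImplicit false

open Claims.C0366 Claims.C0366.WeakHessian
open Set Filter MeasureTheory
open scoped ENNReal NNReal Topology

namespace Claimed.Agent.R210.CD.Ent.Dens

open Claimed.Agent.R210.Defs Claimed.Agent.R210.CD.Ent.Base

variable {X : Type*} [MetricSpace X] [MeasurableSpace X] [BorelSpace X]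
variable {m μ : Measure X} {M : ℝ≥0} {o : X} {R : ℝ}

theorem cd_ent_ac (h : BddDens m μ M o R) : μ ≪ m :=
  Measure.absolutelyContinuous_of_le_smul h.le

/-- `ae_le_of_forall_setLIntegral_le_of_sigmaFinite` + `Measure.setLIntegral_rnDeriv_le`, then `toReal`. -/
theorem cd_ent_rho_le [SigmaFinite m] (h : BddDens m μ M o R) : ∀ᵐ x ∂m, rho m μ x ≤ M := by
  have h1 : μ.rnDeriv m ≤ᵐ[m] fun _ => (M : ℝ≥0∞) := by
    refine ae_le_of_forall_setLIntegral_le_of_sigmaFinite (Measure.measurable_rnDeriv μ m) ?_
    intro s hs _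
    calc ∫⁻ x in s, μ.rnDeriv m x ∂m ≤ μ s := Measure.setLIntegral_rnDeriv_le s
      _ ≤ ((M : ℝ≥0∞) • m) s := h.le s
      _ = ∫⁻ _ in s, (M : ℝ≥0∞) ∂m := by
          rw [setLIntegral_const]; rfl
  filter_upwards [h1] with x hx
  have := ENNReal.toReal_mono ENNReal.coe_ne_top hx
  simpa [rho] using this

/-- `∫⁻ over the complement of the ball of rnDeriv ≤ μ (complement) = 0` (`Measure.setLIntegral_rnDeriv_le`), `setLIntegral_eq_zero_iff`/`ae_restrict_iff`. -/
theorem cd_ent_rho_zero (h : BddDens m μ M o R) : ∀ᵐ x ∂m, x ∉ Metric.closedBall o R → rho m μ x = 0 := by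
  have hms : MeasurableSet (Metric.closedBall o R)ᶜ := Metric.isClosed_closedBall.measurableSet.compl
  have h0 : ∫⁻ x in (Metric.closedBall o R)ᶜ, μ.rnDeriv m x ∂m = 0 :=
    le_antisymm ((Measure.setLIntegral_rnDeriv_le _).trans h.conc.le) zero_le
  rw [setLIntegral_eq_zero_iff hms (Measure.measurable_rnDeriv μ m)] at h0
  filter_upwards [h0] with x hx hxn
  simp [rho, hx hxn]

/-- `ρ log ρ` is measurable, bounded (by `max 1 (M |log M|)`, say: `|r log r| ≤ 1` for `r ∈ [0,1]` (`Real.abs_log_mul_self_lt`), monotone for `r ≥ 1`)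
and vanishes a.e. outside `closedBall o R`, which has finite measure. -/
theorem cd_ent_integrable_rholog (hfin : FiniteOnBoundedSets m) (h : BddDens m μ M o R) :
    Integrable (fun x => rho m μ x * Real.log (rho m μ x)) m := by
  have : SigmaFinite m := cd_ent_sigmaFinite hfin
  have hmeas : Measurable (fun x => rho m μ x) := (Measure.measurable_rnDeriv μ m).ennreal_toReal
  have hmeas2 : Measurable (fun x => rho m μ x * Real.log (rho m μ x)) :=
    hmeas.mul (Real.measurable_log.comp hmeas)
  have hball : m (Metric.closedBall o R) < ∞ := hfin _ Metric.isBounded_closedBall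
  have hind : Integrable ((Metric.closedBall o R).indicator (fun _ : X => (1 + (M : ℝ) * (M : ℝ)))) m := by
    rw [integrable_indicator_iff Metric.isClosed_closedBall.measurableSet]
    exact integrableOn_const hball.ne (by simp)
  refine hind.mono' hmeas2.aestronglyMeasurable ?_
  filter_upwards [cd_ent_rho_le h, cd_ent_rho_zero h] with x hx1 hx0
  by_cases hxB : x ∈ Metric.closedBall o R
  · rw [Set.indicator_of_mem hxB, Real.norm_eq_abs]
    have h0 : 0 ≤ rho m μ x := ENNReal.toReal_nonneg
    have hM0 : (0 : ℝ) ≤ M := M.coe_nonneg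
    rcases le_total (rho m μ x) 1 with h1 | h1
    · rcases h0.eq_or_lt with h00 | h00
      · rw [← h00]
        simp
        positivity
      · have := Real.abs_log_mul_self_lt (rho m μ x) h00 h1
        rw [mul_comm]
        nlinarith [mul_nonneg hM0 hM0]
    · have hl0 : 0 ≤ Real.log (rho m μ x) := Real.log_nonneg h1
      have hl1 : Real.log (rho m μ x) ≤ rho m μ x := (Real.log_le_sub_one_of_pos (by linarith)).trans (by linarith)
      rw [abs_of_nonneg (mul_nonneg h0 hl0)]
      nlinarith
  · rw [Set.indicator_of_notMem hxB, hx0 hxB]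
    simp

/-- `integrable_rnDeriv_smul_iff` -/
theorem cd_ent_integrable_log (hfin : FiniteOnBoundedSets m) (h : BddDens m μ M o R) :
    Integrable (fun x => Real.log (rho m μ x)) μ := by
  have : SigmaFinite m := cd_ent_sigmaFinite hfin
  have := h.prob
  exact (integrable_toReal_rnDeriv_mul_iff (cd_ent_ac h)).1 (cd_ent_integrable_rholog hfin h)

/-- `integral_rnDeriv_smul` -/
theorem cd_ent_integral_log (hfin : FiniteOnBoundedSets m) (h : BddDens m μ M o R) :
    ∫ x, Real.log (rho m μ x) ∂μ = Ent m μ := by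
  have : SigmaFinite m := cd_ent_sigmaFinite hfin
  have := h.prob
  exact (integral_toReal_rnDeriv_mul (cd_ent_ac h)).symm

/-- `Measure.rnDeriv_pos`, `Measure.rnDeriv_lt_top` -/
theorem cd_ent_rn_pos (hfin : FiniteOnBoundedSets m) (h : BddDens m μ M o R) :
    ∀ᵐ x ∂μ, μ.rnDeriv m x ≠ 0 ∧ μ.rnDeriv m x ≠ ∞ := by
  have := cd_ent_sigmaFinite hfin
  have := h.prob
  have hac := cd_ent_ac h
  filter_upwards [Measure.rnDeriv_pos hac, hac.ae_le (Measure.rnDeriv_lt_top μ m)] with x h1 h2
  exact ⟨h1.ne', h2.ne⟩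

end Claimed.Agent.R210.CD.Ent.Dens
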