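/-
Row 210 (S0432), layer CD, block CD4 (entropy at the midpoint), file 4: lower bound of the right-hand side of the CD inequality.
Sub-architect of the block: helper988.
-/
import Claimed.Agent.R210.CD.Ent.Coef
import Claimed.Agent.R210.CD.Ent.Dens
import Claimed.Agent.R210.CD.Ent.Cost

set_option autoImplicit false

open Claims.C0366 Claims.C0366.WeakHessian
open Set Filter MeasureTheory
open scoped ENNReal NNReal Topology

namespace Claimed.Agent.R210.CD.Ent.Rhs

open Claimed.Agent.R210.Defs Claimed.Agent.R210.CD.Ent.Base Claimed.Agent.R210.CD.Ent.Coef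
  Claimed.Agent.R210.CD.Ent.Dens Claimed.Agent.R210.CD.Ent.Cost

variable {X : Type*} [MetricSpace X] [MeasurableSpace X] [BorelSpace X]
variable {m μ₀ μ₁ : Measure X} {K N : ℝ} {M₀ M₁ : ℝ≥0} {o₀ o₁ : X} {R₀ R₁ : ℝ} {π : Measure (Curve X)}

/-- With `g_i γ = log (rho m μ_i (γ i))`, `dd γ = dist (γ 0) (γ 1)^2`, `h = 1 - ((g₀+g₁)/2 - K/8 dd)/N'`:
a.e. the integrand is `≥ ofReal ((1-(g₀-K dd/8)/N')/2) + ofReal ((1-(g₁-K dd/8)/N')/2) ≥ ofReal h`
(`cd_ent_tau_ge`, `cd_ent_pointwise`, `cd_ent_rn_pos`, `ENNReal.ofReal_add_le`), `ofReal (∫ h) ≤ ∫⁻ ofReal h`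
(`ofReal_integral_eq_lintegral_ofReal` is for `h ≥ 0`; in general use `integral_le_integral_pos_part`-type argument: `∫ h ≤ ∫ max h 0`),
and `∫ h dπ = 1 - E/N'` by `integral_map`, `cd_ent_integral_log`, `cd_ent_integral_sq`. -/
theorem cd_ent_rhs [TopologicalSpace.SeparableSpace X] (hS : Std m K N)
    (h0 : BddDens m μ₀ M₀ o₀ R₀) (h1 : BddDens m μ₁ M₁ o₁ R₁) [IsProbabilityMeasure π]
    (hopt : IsOptimalCoupling (endpointCoupling π) μ₀ μ₁) {N' : ℝ} (hN' : N ≤ N') :
    ENNReal.ofReal (1 - (Ent m μ₀ / 2 + Ent m μ₁ / 2 - K / 8 * W2sqR μ₀ μ₁) / N') ≤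
      ∫⁻ γ,
          (tauCoeff K N' (1 - ((cd_ent_half : Time) : ℝ)) (dist (γ timeZero) (γ timeOne)) *
            (μ₀.rnDeriv m (γ timeZero)) ^ (-1 / N') +
          tauCoeff K N' ((cd_ent_half : Time) : ℝ) (dist (γ timeZero) (γ timeOne)) *
            (μ₁.rnDeriv m (γ timeOne)) ^ (-1 / N')) ∂π := by
  have hN1 : 1 < N' := lt_of_lt_of_le hS.one_lt_N hN'
  have hN0 : 0 < N' := by linarith
  have e0 := (cd_ent_measurable_eval (X := X) timeZero).aemeasurable (μ := π)
  have e1 := (cd_ent_measurable_eval (X := X) timeOne).aemeasurable (μ := π)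
  -- the two logarithmic terms
  have i0 : Integrable (fun x => Real.log (rho m μ₀ x)) (Measure.map (fun γ : Curve X => γ timeZero) π) := by
    rw [cd_ent_map_zero hopt.1]; exact cd_ent_integrable_log hS.finite h0
  have i1 : Integrable (fun x => Real.log (rho m μ₁ x)) (Measure.map (fun γ : Curve X => γ timeOne) π) := by
    rw [cd_ent_map_one hopt.1]; exact cd_ent_integrable_log hS.finite h1
  have hg0 : Integrable (fun γ : Curve X => Real.log (rho m μ₀ (γ timeZero))) π :=
    (integrable_map_measure i0.aestronglyMeasurable e0).1 i0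
  have hg1 : Integrable (fun γ : Curve X => Real.log (rho m μ₁ (γ timeOne))) π :=
    (integrable_map_measure i1.aestronglyMeasurable e1).1 i1
  have v0 : ∫ γ : Curve X, Real.log (rho m μ₀ (γ timeZero)) ∂π = Ent m μ₀ := by
    rw [← integral_map e0 i0.aestronglyMeasurable, cd_ent_map_zero hopt.1]
    exact cd_ent_integral_log hS.finite h0
  have v1 : ∫ γ : Curve X, Real.log (rho m μ₁ (γ timeOne)) ∂π = Ent m μ₁ := by
    rw [← integral_map e1 i1.aestronglyMeasurable, cd_ent_map_one hopt.1]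
    exact cd_ent_integral_log hS.finite h1
  have hdd : Integrable (fun γ : Curve X => dist (γ timeZero) (γ timeOne) ^ 2) π :=
    cd_ent_integrable_sq h0 h1 hopt.1
  have vdd : ∫ γ : Curve X, dist (γ timeZero) (γ timeOne) ^ 2 ∂π = W2sqR μ₀ μ₁ := cd_ent_integral_sq hopt
  -- the real lower bound
  set h : Curve X → ℝ := fun γ =>
    1 - (1 / (2 * N')) * Real.log (rho m μ₀ (γ timeZero)) - (1 / (2 * N')) * Real.log (rho m μ₁ (γ timeOne))
      + (K / (8 * N')) * dist (γ timeZero) (γ timeOne) ^ 2 with hh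
  have I1 : Integrable (fun γ : Curve X => 1 - (1 / (2 * N')) * Real.log (rho m μ₀ (γ timeZero))) π :=
    (integrable_const (1 : ℝ)).sub (hg0.const_mul _)
  have I2 : Integrable (fun γ : Curve X => 1 - (1 / (2 * N')) * Real.log (rho m μ₀ (γ timeZero))
      - (1 / (2 * N')) * Real.log (rho m μ₁ (γ timeOne))) π := I1.sub (hg1.const_mul _)
  have hint : Integrable h π := I2.add (hdd.const_mul _)
  have hval : ∫ γ, h γ ∂π = 1 - (Ent m μ₀ / 2 + Ent m μ₁ / 2 - K / 8 * W2sqR μ₀ μ₁) / N' := by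
    simp only [hh]
    rw [integral_add I2 (hdd.const_mul _), integral_sub I1 (hg1.const_mul _),
      integral_sub (integrable_const (1 : ℝ)) (hg0.const_mul _), integral_const_mul, integral_const_mul,
      integral_const_mul, v0, v1, vdd]
    simp only [integral_const, probReal_univ, smul_eq_mul, mul_one]
    field_simp
    ring
  rw [← hval]
  have step1 : ENNReal.ofReal (∫ γ, h γ ∂π) ≤ ∫⁻ γ, ENNReal.ofReal (h γ) ∂π := by
    apply ENNReal.ofReal_le_of_le_toReal
    rw [integral_eq_lintegral_pos_part_sub_lintegral_neg_part hint]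
    exact sub_le_self _ ENNReal.toReal_nonneg
  refine step1.trans (lintegral_mono_ae ?_)
  filter_upwards [cd_ent_ae_zero hopt.1 (cd_ent_rn_pos hS.finite h0),
    cd_ent_ae_one hopt.1 (cd_ent_rn_pos hS.finite h1)] with γ p0 p1
  have hhalf : (1 : ℝ) - ((cd_ent_half : Time) : ℝ) = 1 / 2 := by rw [cd_ent_half_coe]; norm_num
  rw [hhalf, cd_ent_half_coe]
  have a0 := (cd_ent_pointwise p0.1 p0.2 hN0 (K * dist (γ timeZero) (γ timeOne) ^ 2 / 8)).trans
    (mul_le_mul_left (cd_ent_tau_ge hS.K_neg hN1 (dist (γ timeZero) (γ timeOne))) _)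
  have a1 := (cd_ent_pointwise p1.1 p1.2 hN0 (K * dist (γ timeZero) (γ timeOne) ^ 2 / 8)).trans
    (mul_le_mul_left (cd_ent_tau_ge hS.K_neg hN1 (dist (γ timeZero) (γ timeOne))) _)
  refine le_trans ?_ (add_le_add a0 a1)
  refine le_trans (le_of_eq ?_) ENNReal.ofReal_add_le
  congr 1
  simp only [hh, rho]
  field_simp
  ring

end Claimed.Agent.R210.CD.Ent.Rhs
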