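/-
Row 210 (S0432), layer CD, block CD4 (entropy at the midpoint), file 5: the interpolations live on a bounded set.
Sub-architect of the block: helper988.
-/
import Claimed.Agent.R210.CD.Ent.Cost

set_option autoImplicit false

open Claims.C0366 Claims.C0366.WeakHessian
open Set Filter MeasureTheory
open scoped ENNReal NNReal Topology

namespace Claimed.Agent.R210.CD.Ent.Track

open Claimed.Agent.R210.Defs Claimed.Agent.R210.CD.Ent.Base Claimed.Agent.R210.CD.Ent.Cost

variable {X : Type*} [MetricSpace X] [MeasurableSpace X] [BorelSpace X]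
variable {m μ₀ μ₁ : Measure X} {M₀ M₁ : ℝ≥0} {o₀ o₁ : X} {R₀ R₁ : ℝ} {π : Measure (Curve X)}

/-- `dist (γ t) o₀ ≤ dist (γ t) (γ 0) + R₀ = t * dist (γ 0) (γ 1) + R₀ ≤ (R₀ + dist o₀ o₁ + R₁) + R₀` for a.e. `γ`;
`Measure.map_apply` (`cd_ent_measurable_eval`), `measure_eq_zero_iff_ae_notMem`. -/
theorem cd_ent_conc (h0 : BddDens m μ₀ M₀ o₀ R₀) (h1 : BddDens m μ₁ M₁ o₁ R₁)
    (hgeo : ∀ᵐ γ ∂π, IsGeodesic γ) (hc : IsCoupling (endpointCoupling π) μ₀ μ₁) (t : Time) :
    interpolation π t (Metric.closedBall o₀ (2 * R₀ + dist o₀ o₁ + R₁))ᶜ = 0 := by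
  have hms : MeasurableSet (Metric.closedBall o₀ (2 * R₀ + dist o₀ o₁ + R₁))ᶜ :=
    Metric.isClosed_closedBall.measurableSet.compl
  rw [interpolation, Measure.map_apply (cd_ent_measurable_eval t) hms]
  have hz : ∀ᵐ γ ∂π, γ timeZero ∈ Metric.closedBall o₀ R₀ := by
    refine cd_ent_ae_zero hc ?_
    have := h0.conc
    rw [measure_eq_zero_iff_ae_notMem] at this
    filter_upwards [this] with x hx
    simpa using hx
  rw [measure_eq_zero_iff_ae_notMem]
  filter_upwards [hgeo, hz, cd_ent_dist_le h0 h1 hc] with γ hγ hγ0 hγd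
  simp only [mem_preimage, mem_compl_iff, not_not, Metric.mem_closedBall] at hγ0 ⊢
  have e := hγ t timeZero
  have ht0 : (0 : ℝ) ≤ (t : ℝ) := t.2.1
  have ht1 : (t : ℝ) ≤ 1 := t.2.2
  have ez : ((timeZero : Time) : ℝ) = 0 := rfl
  rw [ez, sub_zero, abs_of_nonneg ht0] at e
  have hd : 0 ≤ dist (γ timeZero) (γ timeOne) := dist_nonneg
  have h2 : dist (γ t) (γ timeZero) ≤ dist (γ timeZero) (γ timeOne) := by
    rw [e]
    exact mul_le_of_le_one_left hd ht1
  have h3 := dist_triangle (γ t) (γ timeZero) o₀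
  linarith

end Claimed.Agent.R210.CD.Ent.Track
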