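/-
Row 210 (S0432), layer CD, block CD4: ENTROPY INEQUALITY AT THE MIDPOINT.   Sub-architect of the block: helper988.

Statement `cd_ent_main`: for `μ₀, μ₁` with bounded densities and bounded supports and a plan `π` as given by the frozen
`CurvatureDimension m K N`, the midpoint `ν = interpolation π (1/2)` satisfies `ν ≪ m`, `ρ log ρ ∈ L¹(m)` and
`Ent ν ≤ Ent μ₀ / 2 + Ent μ₁ / 2 - K/8 * W₂²(μ₀,μ₁) =: E`.

Proof.  (R) for EVERY `N' ≥ N`:  `1 - E/N' ≤ ∫ [tau(1/2,d) ρ₀(γ₀)^(-1/N') + tau(1/2,d) ρ₁(γ₁)^(-1/N')] dπ`   (`Rhs.cd_ent_rhs`),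
  because `2 tau_{K,N'}(1/2,θ) = cosh(θ k'/2)^(-(N'-1)/N') ≥ exp (K θ²/(8N'))` and `exp (-x) ≥ 1 - x`.
(L) `ν` lives on a bounded set (`Track`), so `ρ^(1-1/N') ∈ L¹` and `renyiIntegral = ofReal ∫ ρ^(1-1/N')`, `∫ ρ = 1 - ν^s(X)` (`Lhs`).
(Lim) `N' (ρ - ρ^(1-1/N'))` increases to `ρ log ρ`; Fatou; `N' ν^s(X)` bounded, so `ν^s = 0` (`Limit.cd_ent_limit`).
-/
import Claimed.Agent.R210.CD.Ent.Rhs
import Claimed.Agent.R210.CD.Ent.Track
import Claimed.Agent.R210.CD.Ent.Lhs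
import Claimed.Agent.R210.CD.Ent.Limit

set_option autoImplicit false

open Claims.C0366 Claims.C0366.WeakHessian
open Set Filter MeasureTheory
open scoped ENNReal NNReal Topology

namespace Claimed.Agent.R210.CD.Ent.Main

open Claimed.Agent.R210.Defs Claimed.Agent.R210.CD.Ent.Base Claimed.Agent.R210.CD.Ent.Rhs
  Claimed.Agent.R210.CD.Ent.Track Claimed.Agent.R210.CD.Ent.Lhs Claimed.Agent.R210.CD.Ent.Limit

variable {X : Type*} [MetricSpace X] [MeasurableSpace X] [BorelSpace X]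
variable {m μ₀ μ₁ : Measure X} {K N : ℝ} {M₀ M₁ : ℝ≥0} {o₀ o₁ : X} {R₀ R₁ : ℝ} {π : Measure (Curve X)}

/-- **CD4** -/
theorem cd_ent_main [TopologicalSpace.SeparableSpace X] (hS : Std m K N)
    (h0 : BddDens m μ₀ M₀ o₀ R₀) (h1 : BddDens m μ₁ M₁ o₁ R₁) (hprob : IsProbabilityMeasure π)
    (hgeo : ∀ᵐ γ ∂π, IsGeodesic γ) (hopt : IsOptimalCoupling (endpointCoupling π) μ₀ μ₁)
    (hineq : ∀ N' : ℝ, N ≤ N' → ∀ t : Time,
        (∫⁻ γ,
          (tauCoeff K N' (1 - (t : ℝ)) (dist (γ timeZero) (γ timeOne)) *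
            (μ₀.rnDeriv m (γ timeZero)) ^ (-1 / N') +
          tauCoeff K N' (t : ℝ) (dist (γ timeZero) (γ timeOne)) *
            (μ₁.rnDeriv m (γ timeOne)) ^ (-1 / N')) ∂π) ≤
        renyiIntegral m (interpolation π t) N') :
    interpolation π cd_ent_half ≪ m ∧
    Integrable (fun x => rho m (interpolation π cd_ent_half) x *
      Real.log (rho m (interpolation π cd_ent_half) x)) m ∧
    Ent m (interpolation π cd_ent_half) ≤ Ent m μ₀ / 2 + Ent m μ₁ / 2 - K / 8 * W2sqR μ₀ μ₁ := by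
  haveI := cd_ent_sigmaFinite hS.finite
  haveI : IsProbabilityMeasure (interpolation π cd_ent_half) := cd_ent_interp_prob cd_ent_half
  have hc := cd_ent_conc h0 h1 hgeo hopt.1 cd_ent_half
  have hlim := cd_ent_limit m (rho m (interpolation π cd_ent_half)) cd_ent_measurable_rho cd_ent_rho_nonneg
    cd_ent_integrable_rho hS.one_lt_N
    (fun N' hN' => cd_ent_integrable_pow hS.finite hc (lt_of_lt_of_le hS.one_lt_N hN'))
    (a := ((interpolation π cd_ent_half).singularPart m univ).toReal)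
    (E := Ent m μ₀ / 2 + Ent m μ₁ / 2 - K / 8 * W2sqR μ₀ μ₁) ENNReal.toReal_nonneg cd_ent_integral_rho
    (fun N' hN' => by
      have h := (cd_ent_rhs hS h0 h1 hopt hN').trans (hineq N' hN' cd_ent_half)
      rw [cd_ent_renyi_eq hS.finite hc (lt_of_lt_of_le hS.one_lt_N hN')] at h
      exact (ENNReal.ofReal_le_ofReal_iff
        (integral_nonneg fun x => Real.rpow_nonneg (cd_ent_rho_nonneg x) _)).1 h)
  refine ⟨?_, hlim.2.1, hlim.2.2⟩
  have hz : (interpolation π cd_ent_half).singularPart m univ = 0 := by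
    rcases (ENNReal.toReal_eq_zero_iff _).1 hlim.1 with h | h
    · exact h
    · exact absurd h (measure_ne_top _ _)
  exact (Measure.singularPart_eq_zero _ _).1 (Measure.measure_univ_eq_zero.1 hz)

end Claimed.Agent.R210.CD.Ent.Main
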