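/-
Row 210 (S0432), layer CD, block CD4 (entropy at the midpoint), file 6: the density of a probability measure living on a bounded set.
Sub-architect of the block: helper988.
-/
import Claimed.Agent.R210.CD.Ent.Base

set_option autoImplicit false

open Claims.C0366 Claims.C0366.WeakHessian
open Set Filter MeasureTheory
open scoped ENNReal NNReal Topology

namespace Claimed.Agent.R210.CD.Ent.Lhs

open Claimed.Agent.R210.Defs Claimed.Agent.R210.CD.Ent.Base

variable {X : Type*} [MetricSpace X] [MeasurableSpace X] [BorelSpace X]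
variable {m ν : Measure X} {o : X} {R N : ℝ}

theorem cd_ent_measurable_rho : Measurable (rho m ν) :=
  (Measure.measurable_rnDeriv ν m).ennreal_toReal

theorem cd_ent_rho_nonneg (x : X) : 0 ≤ rho m ν x := ENNReal.toReal_nonneg

/-- `Measure.integrable_toReal_rnDeriv` -/
theorem cd_ent_integrable_rho [IsFiniteMeasure ν] : Integrable (rho m ν) m := by
  exact Measure.integrable_toReal_rnDeriv

/-- `ν = ν.singularPart m + m.withDensity (ν.rnDeriv m)` (`Measure.haveLebesgueDecomposition_add`) evaluated at `univ`;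
`integral_toReal`, `Measure.rnDeriv_lt_top`. -/
theorem cd_ent_integral_rho [SigmaFinite m] [IsProbabilityMeasure ν] :
    ∫ x, rho m ν x ∂m = 1 - (ν.singularPart m univ).toReal := by
  have h1 : ∫ x, rho m ν x ∂m = (∫⁻ x, ν.rnDeriv m x ∂m).toReal :=
    integral_toReal (Measure.measurable_rnDeriv ν m).aemeasurable (Measure.rnDeriv_lt_top ν m)
  have h2 : (1 : ℝ≥0∞) = ν.singularPart m univ + ∫⁻ x, ν.rnDeriv m x ∂m := by
    have h3 := congrArg (fun μ : Measure X => μ univ) (Measure.haveLebesgueDecomposition_add ν m)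
    simp only [measure_univ, Measure.add_apply, withDensity_apply _ MeasurableSet.univ,
      Measure.restrict_univ] at h3
    exact h3
  have hs : ν.singularPart m univ ≠ ∞ := by
    intro h
    rw [h, top_add] at h2
    exact ENNReal.one_ne_top h2
  have hl : ∫⁻ x, ν.rnDeriv m x ∂m ≠ ∞ := (Measure.lintegral_rnDeriv_lt_top ν m).ne
  have h4 := congrArg ENNReal.toReal h2
  rw [ENNReal.toReal_add hs hl, ENNReal.toReal_one] at h4
  rw [h1]
  linarith

/-- Hölder: with `B = closedBall o R`, `ρ = ν.rnDeriv m` vanishes a.e. outside `B` (`Measure.setLIntegral_rnDeriv_le`), so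
`∫⁻ ρ^(1-1/N) = ∫⁻ ρ^(1-1/N) * 1_B ≤ (∫⁻ ρ)^(1-1/N) * (m B)^(1/N) ≤ (m B)^(1/N)`
(`ENNReal.lintegral_mul_le_Lp_mul_Lq` with `p = N/(N-1)`, `q = N`; `Measure.lintegral_rnDeriv_le`).
Alternative without Hölder: `r^(1-1/N) ≤ 1 + r`, so `∫⁻ ≤ m B + 1`. -/
theorem cd_ent_renyi_lt_top (hfin : FiniteOnBoundedSets m) [IsProbabilityMeasure ν]
    (hc : ν (Metric.closedBall o R)ᶜ = 0) (hN : 1 < N) : renyiIntegral m ν N < ∞ := by
  have hB : MeasurableSet (Metric.closedBall o R) := Metric.isClosed_closedBall.measurableSet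
  have he : 0 < 1 - 1 / N := by
    have : 1 / N < 1 := by rw [div_lt_one (by linarith)]; exact hN
    linarith
  have he1 : 1 - 1 / N ≤ 1 := by
    have : 0 ≤ 1 / N := by positivity
    linarith
  -- the density vanishes a.e. outside the ball
  have h0 : ∀ᵐ x ∂m, x ∈ (Metric.closedBall o R)ᶜ → ν.rnDeriv m x = 0 := by
    have h1 : ∫⁻ x in (Metric.closedBall o R)ᶜ, ν.rnDeriv m x ∂m = 0 :=
      le_antisymm ((Measure.setLIntegral_rnDeriv_le _).trans hc.le) zero_le
    rw [lintegral_eq_zero_iff (Measure.measurable_rnDeriv ν m)] at h1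
    exact (ae_restrict_iff' hB.compl).1 h1
  have hle : ∀ᵐ x ∂m, (ν.rnDeriv m x) ^ (1 - 1 / N) ≤
      (Metric.closedBall o R).indicator (fun _ => (1 : ℝ≥0∞)) x + ν.rnDeriv m x := by
    filter_upwards [h0] with x hx
    by_cases hxB : x ∈ Metric.closedBall o R
    · rw [indicator_of_mem hxB]
      rcases le_total (ν.rnDeriv m x) 1 with h | h
      · exact (ENNReal.rpow_le_one h he.le).trans le_self_add
      · exact ((ENNReal.rpow_le_rpow_of_exponent_le h he1).trans (ENNReal.rpow_one _).le).trans le_add_self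
    · rw [hx hxB, ENNReal.zero_rpow_of_pos he]
      exact zero_le
  unfold renyiIntegral
  calc ∫⁻ x, (ν.rnDeriv m x) ^ (1 - 1 / N) ∂m
      ≤ ∫⁻ x, ((Metric.closedBall o R).indicator (fun _ => (1 : ℝ≥0∞)) x + ν.rnDeriv m x) ∂m :=
        lintegral_mono_ae hle
    _ = m (Metric.closedBall o R) + ∫⁻ x, ν.rnDeriv m x ∂m := by
        rw [lintegral_add_left (measurable_const.indicator hB), lintegral_indicator_const hB, one_mul]
    _ < ∞ := ENNReal.add_lt_top.2 ⟨hfin _ Metric.isBounded_closedBall, Measure.lintegral_rnDeriv_lt_top ν m⟩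

/-- `ENNReal.toReal_rpow`, `integrable_toReal_of_lintegral_ne_top` -/
theorem cd_ent_integrable_pow (hfin : FiniteOnBoundedSets m) [IsProbabilityMeasure ν]
    (hc : ν (Metric.closedBall o R)ᶜ = 0) (hN : 1 < N) :
    Integrable (fun x => rho m ν x ^ (1 - 1 / N)) m := by
  have h := integrable_toReal_of_lintegral_ne_top
    (((Measure.measurable_rnDeriv ν m).pow_const (1 - 1 / N)).aemeasurable (μ := m))
    (cd_ent_renyi_lt_top hfin hc hN).ne
  refine h.congr (Filter.Eventually.of_forall fun x => ?_)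
  simp only [rho, ENNReal.toReal_rpow]

/-- `integral_toReal`, `ENNReal.ofReal_toReal` -/
theorem cd_ent_renyi_eq (hfin : FiniteOnBoundedSets m) [IsProbabilityMeasure ν]
    (hc : ν (Metric.closedBall o R)ᶜ = 0) (hN : 1 < N) :
    renyiIntegral m ν N = ENNReal.ofReal (∫ x, rho m ν x ^ (1 - 1 / N) ∂m) := by
  have hlt := cd_ent_renyi_lt_top hfin hc hN
  have hm : AEMeasurable (fun x => (ν.rnDeriv m x) ^ (1 - 1 / N)) m :=
    ((Measure.measurable_rnDeriv ν m).pow_const (1 - 1 / N)).aemeasurable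
  have h1 : ∫ x, rho m ν x ^ (1 - 1 / N) ∂m = (renyiIntegral m ν N).toReal := by
    unfold renyiIntegral
    rw [← integral_toReal hm (ae_lt_top' hm hlt.ne)]
    refine integral_congr_ae (Filter.Eventually.of_forall fun x => ?_)
    simp only [rho, ENNReal.toReal_rpow]
  rw [h1, ENNReal.ofReal_toReal hlt.ne]

end Claimed.Agent.R210.CD.Ent.Lhs
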